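import Vale.Agent.P262.Bdl.B2
import Vale.Agent.P262.Bdl.B1

open scoped ENNReal

namespace Vale.Agent.Results.P262.SigmaSqrtLog

open Vale.Agent.P262 Vale.Agent.P262.Sqrt

/-- Both constants of the problem.  There are absolute constants `c, C > 0` such that for every
`d ≥ 1`: `c √d ≤ S_2(d) ≤ C √d` and `√d ≤ σ(d) ≤ C √d log (d + 1)`. -/
theorem result : ∃ c C : ℝ, 0 < c ∧ 0 < C ∧ ∀ d : ℕ, 1 ≤ d →
    (ENNReal.ofReal (c * Real.sqrt d) ≤ steinitzConst d ∧
      steinitzConst d ≤ ENNReal.ofReal (C * Real.sqrt d)) ∧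
    (ENNReal.ofReal (Real.sqrt d) ≤ signedConst d ∧
      signedConst d ≤ ENNReal.ofReal (C * (Real.sqrt d * Real.log (d + 1)))) := by
  obtain ⟨c, hc, hlow⟩ := SqrtLower.lower
  have hstage : StageProp := stage_of_tool toolProp
  obtain ⟨C, hC, hup⟩ := final_of_core eigenProp
    (coreProp (nodeProp hstage tiltProp updateProp) potProp schedProp)
  obtain ⟨C', hC', hsig⟩ := Vale.Agent.P262.Sig.sigma_sqrt_log
  refine ⟨c, C + 1 + C', hc, by linarith, fun d hd => ⟨⟨hlow d hd, ?_⟩, (hsig d hd).1, ?_⟩⟩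
  · refine (hup d hd).trans (ENNReal.ofReal_le_ofReal ?_)
    have := Real.sqrt_nonneg (d : ℝ)
    nlinarith
  · refine (hsig d hd).2.trans (ENNReal.ofReal_le_ofReal ?_)
    have h1 : 0 ≤ Real.sqrt (d : ℝ) * Real.log (d + 1) :=
      mul_nonneg (Real.sqrt_nonneg _) (Real.log_nonneg (by
        have : (0 : ℝ) ≤ d := Nat.cast_nonneg d
        linarith))
    exact mul_le_mul_of_nonneg_right (by linarith) h1

end Vale.Agent.Results.P262.SigmaSqrtLog
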